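import Vale.Agent.Lib.P082.helper95.Defs

/-!
# P082: two abstract steps

* `exists_const`: in a Banach algebra in which every bounded 2-cocycle is a coboundary, the
  cobounding map can be chosen with norm at most a constant times the norm of the cocycle
  (open mapping theorem).
* `transfer`: such a constant passes from an algebra `A` to an algebra `B` that sits in `A` as a
  corner through contractive multiplicative maps `c : A → B`, `i : B → A` with `c ∘ i = id`.
-/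

namespace Vale.Agent.Lib.P082.H95

open ContinuousLinearMap

universe v w

/-- the open mapping theorem for a bounded linear map onto a closed subspace -/
theorem open_mapping_aux {X Y : Type*} [NormedAddCommGroup X] [NormedSpace ℂ X] [CompleteSpace X]
    [NormedAddCommGroup Y] [NormedSpace ℂ Y] [CompleteSpace Y] (D : X →L[ℂ] Y)
    (Z : Submodule ℂ Y) (hZ : IsClosed (Z : Set Y)) (hD : ∀ x, D x ∈ Z)
    (hsurj : ∀ z ∈ Z, ∃ x, D x = z) :
    ∃ C : ℝ, 0 < C ∧ ∀ z ∈ Z, ∃ x, D x = z ∧ ‖x‖ ≤ C * ‖z‖ := by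
  have hcomp : CompleteSpace Z := hZ.completeSpace_coe
  obtain ⟨Dz, hDz⟩ : ∃ Dz : X →L[ℂ] Z, ∀ x, ((Dz x : Z) : Y) = D x :=
    ⟨D.codRestrict Z hD, fun x => rfl⟩
  have hs : Function.Surjective Dz := by
    intro z
    obtain ⟨x, hx⟩ := hsurj z.1 z.2
    exact ⟨x, Subtype.ext (by rw [hDz, hx])⟩
  obtain ⟨C, hC, hpre⟩ := ContinuousLinearMap.exists_preimage_norm_le Dz hs
  refine ⟨C, hC, fun z hz => ?_⟩
  obtain ⟨x, hx, hxn⟩ := hpre ⟨z, hz⟩
  refine ⟨x, ?_, hxn⟩
  have h2 := congrArg Subtype.val hx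
  rw [hDz] at h2
  exact h2

section OpenMapping

variable {A : Type v} [NormedRing A] [NormedAlgebra ℂ A]

/-- the Hochschild differential from bounded linear maps to bounded bilinear maps -/
noncomputable def dOne (A : Type v) [NormedRing A] [NormedAlgebra ℂ A] :
    (A →L[ℂ] A) →L[ℂ] (A →L[ℂ] A →L[ℂ] A) :=
  (((compL ℂ A (A →L[ℂ] A) (A →L[ℂ] A)).flip (ContinuousLinearMap.mul ℂ A)).comp
      (compL ℂ A A A).flip
    - ((compL ℂ A (A →L[ℂ] A) (A →L[ℂ] A)).flip (ContinuousLinearMap.mul ℂ A)).comp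
      (compL ℂ A A A))
    + compL ℂ A A (A →L[ℂ] A) (ContinuousLinearMap.mul ℂ A)

theorem dOne_apply (g : A →L[ℂ] A) (a b : A) :
    dOne A g a b = a * g b - g (a * b) + g a * b := rfl

theorem isCobound2_iff (f : A →L[ℂ] A →L[ℂ] A) (g : A →L[ℂ] A) :
    IsCobound2 f g ↔ f = dOne A g := by
  constructor
  · intro h
    ext a b
    rw [h a b, dOne_apply]
  · intro h a b
    rw [h, dOne_apply]

theorem isCocycle2_dOne (g : A →L[ℂ] A) : IsCocycle2 (dOne A g) := by
  intro a b c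
  simp only [dOne_apply, mul_sub, mul_add, sub_mul, add_mul, mul_assoc]
  abel

/-- the closed subspace of bounded 2-cocycles -/
def cocycles (A : Type v) [NormedRing A] [NormedAlgebra ℂ A] :
    Submodule ℂ (A →L[ℂ] A →L[ℂ] A) where
  carrier := {f | IsCocycle2 f}
  add_mem' := by
    intro f f' hf hf' a b c
    calc a * (f + f') b c - (f + f') (a * b) c + (f + f') a (b * c) - (f + f') a b * c
        = (a * f b c - f (a * b) c + f a (b * c) - f a b * c)
          + (a * f' b c - f' (a * b) c + f' a (b * c) - f' a b * c) := by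
          simp only [add_apply, mul_add, add_mul]
          abel
      _ = 0 := by rw [hf a b c, hf' a b c, add_zero]
  zero_mem' := by
    intro a b c
    simp
  smul_mem' := by
    intro z f hf a b c
    calc a * (z • f) b c - (z • f) (a * b) c + (z • f) a (b * c) - (z • f) a b * c
        = z • (a * f b c - f (a * b) c + f a (b * c) - f a b * c) := by
          simp only [smul_apply, mul_smul_comm, smul_mul_assoc, smul_sub, smul_add]
      _ = 0 := by rw [hf a b c, smul_zero]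

theorem mem_cocycles (f : A →L[ℂ] A →L[ℂ] A) : f ∈ cocycles A ↔ IsCocycle2 f := Iff.rfl

theorem continuous_eval (b c : A) :
    Continuous (fun f : A →L[ℂ] A →L[ℂ] A => f b c) :=
  ((apply ℂ A c).comp (apply ℂ (A →L[ℂ] A) b)).continuous

theorem isClosed_cocycles : IsClosed (cocycles A : Set (A →L[ℂ] A →L[ℂ] A)) := by
  have h : (cocycles A : Set (A →L[ℂ] A →L[ℂ] A))
      = ⋂ a : A, ⋂ b : A, ⋂ c : A,
        (fun f : A →L[ℂ] A →L[ℂ] A =>
          a * f b c - f (a * b) c + f a (b * c) - f a b * c) ⁻¹' {0} := by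
    ext f
    simp only [Set.mem_iInter, Set.mem_preimage, Set.mem_singleton_iff]
    rfl
  rw [h]
  refine isClosed_iInter (fun a => isClosed_iInter (fun b => isClosed_iInter (fun c => ?_)))
  refine IsClosed.preimage ?_ isClosed_singleton
  exact (((continuous_const.mul (continuous_eval b c)).sub (continuous_eval (a * b) c)).add
    (continuous_eval a (b * c))).sub ((continuous_eval a b).mul continuous_const)

/-- open mapping step: if every bounded 2-cocycle of the Banach algebra `A` is a coboundary,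
then there is a constant `K ≥ 0` such that every cocycle `f` is the coboundary of some `g`
with `‖g‖ ≤ K * ‖f‖` -/
theorem exists_const [CompleteSpace A]
    (h : ∀ f : A →L[ℂ] A →L[ℂ] A, IsCocycle2 f → ∃ g : A →L[ℂ] A, IsCobound2 f g) :
    ∃ K : ℝ, 0 ≤ K ∧ ∀ f : A →L[ℂ] A →L[ℂ] A, IsCocycle2 f →
      ∃ g : A →L[ℂ] A, IsCobound2 f g ∧ ‖g‖ ≤ K * ‖f‖ := by
  obtain ⟨C, hC, hpre⟩ := open_mapping_aux (dOne A) (cocycles A) isClosed_cocycles
    (fun g => isCocycle2_dOne g)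
    (fun z (hz : z ∈ cocycles A) => by
      obtain ⟨g, hg⟩ := h z ((mem_cocycles z).mp hz)
      exact ⟨g, ((isCobound2_iff z g).mp hg).symm⟩)
  refine ⟨C, hC.le, fun f hf => ?_⟩
  obtain ⟨g, hg, hgn⟩ := hpre f ((mem_cocycles f).mpr hf)
  exact ⟨g, (isCobound2_iff f g).mpr hg.symm, hgn⟩

end OpenMapping

section Transfer

variable {A : Type v} [NormedRing A] [NormedAlgebra ℂ A] {B : Type w} [NormedRing B]
  [NormedAlgebra ℂ B]

/-- pull a bounded bilinear map on `B` back to `A` through `c`, with values pushed to `A`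
through `i`: the pair `x`, `y` is sent to `i (f (c x) (c y))` -/
noncomputable def pull (c : A →L[ℂ] B) (i : B →L[ℂ] A) (f : B →L[ℂ] B →L[ℂ] B) :
    A →L[ℂ] A →L[ℂ] A :=
  (((compL ℂ A B A i).comp ((compL ℂ A B B).flip c)).comp f).comp c

theorem pull_apply (c : A →L[ℂ] B) (i : B →L[ℂ] A) (f : B →L[ℂ] B →L[ℂ] B) (x y : A) :
    pull c i f x y = i (f (c x) (c y)) := rfl

theorem norm_apply_le_of_norm_le_one {E F : Type*} [NormedAddCommGroup E] [NormedSpace ℂ E]
    [NormedAddCommGroup F] [NormedSpace ℂ F] (c : E →L[ℂ] F) (hc1 : ‖c‖ ≤ 1) (x : E) :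
    ‖c x‖ ≤ ‖x‖ :=
  calc ‖c x‖ ≤ ‖c‖ * ‖x‖ := c.le_opNorm x
    _ ≤ 1 * ‖x‖ := by gcongr
    _ = ‖x‖ := one_mul _

theorem norm_pull_le (c : A →L[ℂ] B) (i : B →L[ℂ] A) (f : B →L[ℂ] B →L[ℂ] B)
    (hc1 : ‖c‖ ≤ 1) (hi1 : ‖i‖ ≤ 1) : ‖pull c i f‖ ≤ ‖f‖ := by
  refine opNorm_le_bound₂ _ (norm_nonneg f) (fun x y => ?_)
  rw [pull_apply]
  calc ‖i (f (c x) (c y))‖ ≤ ‖f (c x) (c y)‖ := norm_apply_le_of_norm_le_one i hi1 _
    _ ≤ ‖f‖ * ‖c x‖ * ‖c y‖ := le_opNorm₂ f _ _
    _ ≤ ‖f‖ * ‖x‖ * ‖y‖ := by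
        gcongr
        · exact norm_apply_le_of_norm_le_one c hc1 x
        · exact norm_apply_le_of_norm_le_one c hc1 y

/-- transfer of the constant from `A` to a corner `B` of `A` -/
theorem transfer (c : A →L[ℂ] B) (i : B →L[ℂ] A)
    (hc : ∀ x y, c (x * y) = c x * c y) (hi : ∀ s t, i (s * t) = i s * i t)
    (hci : ∀ t, c (i t) = t) (hl : ∀ x t, x * i t = i (c x * t))
    (hr : ∀ t x, i t * x = i (t * c x)) (hc1 : ‖c‖ ≤ 1) (hi1 : ‖i‖ ≤ 1)
    (K : ℝ) (hK : 0 ≤ K)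
    (hA : ∀ F : A →L[ℂ] A →L[ℂ] A, IsCocycle2 F →
      ∃ G : A →L[ℂ] A, IsCobound2 F G ∧ ‖G‖ ≤ K * ‖F‖) :
    ∀ f : B →L[ℂ] B →L[ℂ] B, IsCocycle2 f →
      ∃ g : B →L[ℂ] B, IsCobound2 f g ∧ ‖g‖ ≤ K * ‖f‖ := by
  intro f hf
  have hF : IsCocycle2 (pull c i f) := by
    intro x y z
    simp only [pull_apply]
    rw [hl, hc, hc, hr, ← map_sub, ← map_add, ← map_sub, hf (c x) (c y) (c z), map_zero]
  obtain ⟨G, hG, hGn⟩ := hA (pull c i f) hF
  refine ⟨(c.comp G).comp i, ?_, ?_⟩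
  · intro s t
    have h := congrArg c (hG (i s) (i t))
    rw [pull_apply, hci, hci, hci, map_add, map_sub, hc, hc, hci, hci, ← hi] at h
    exact h
  · have h1 : ‖(c.comp G).comp i‖ ≤ ‖G‖ := by
      refine opNorm_le_bound _ (norm_nonneg _) (fun t => ?_)
      show ‖c (G (i t))‖ ≤ ‖G‖ * ‖t‖
      calc ‖c (G (i t))‖ ≤ ‖G (i t)‖ := norm_apply_le_of_norm_le_one c hc1 _
        _ ≤ ‖G‖ * ‖i t‖ := G.le_opNorm _
        _ ≤ ‖G‖ * ‖t‖ := by
            gcongr
            exact norm_apply_le_of_norm_le_one i hi1 t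
    calc ‖(c.comp G).comp i‖ ≤ ‖G‖ := h1
      _ ≤ K * ‖pull c i f‖ := hGn
      _ ≤ K * ‖f‖ := by
          gcongr
          exact norm_pull_le c i f hc1 hi1

end Transfer

end Vale.Agent.Lib.P082.H95
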