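import Vale.Agent.Lib.P082.helper95.DefsN
import Vale.Agent.Lib.P082.helper95.Abstract

/-!
# P082, every degree: the two abstract steps

* `exists_constN`: in a Banach algebra in which every bounded cocycle of degree `n+1` is a
  coboundary,
  the cobounding cochain can be chosen with norm at most a constant times the norm of the cocycle
  (open mapping theorem, applied to the closed graph of the coboundary relation).
* `transferN`: such a constant passes from an algebra `A` to an algebra `B` that sits in `A` as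
  a corner through contractive multiplicative maps `c : A → B`, `i : B → A` with `c ∘ i = id`.
-/

namespace Vale.Agent.Lib.P082.H95N

open Vale.Agent.Lib.P082.H95

universe v w

/-- the open mapping theorem for the second projection of a closed subspace of a product onto
a closed subspace -/
theorem graph_open_mapping {X Y : Type*} [NormedAddCommGroup X] [NormedSpace ℂ X]
    [CompleteSpace X] [NormedAddCommGroup Y] [NormedSpace ℂ Y] [CompleteSpace Y]
    (Γ : Submodule ℂ (X × Y)) (hΓ : IsClosed (Γ : Set (X × Y)))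
    (Z : Submodule ℂ Y) (hZ : IsClosed (Z : Set Y)) (h2 : ∀ x ∈ Γ, x.2 ∈ Z)
    (hs : ∀ z ∈ Z, ∃ g, (g, z) ∈ Γ) :
    ∃ C : ℝ, 0 < C ∧ ∀ z ∈ Z, ∃ g, (g, z) ∈ Γ ∧ ‖g‖ ≤ C * ‖z‖ := by
  have hcomp : CompleteSpace Γ := hΓ.completeSpace_coe
  obtain ⟨D, hD⟩ : ∃ D : Γ →L[ℂ] Y, ∀ x : Γ, D x = x.1.2 :=
    ⟨(ContinuousLinearMap.snd ℂ X Y).comp Γ.subtypeL, fun x => rfl⟩
  obtain ⟨C, hC, hpre⟩ := open_mapping_aux D Z hZ
    (fun x => by rw [hD]; exact h2 x.1 x.2)
    (fun z hz => by
      obtain ⟨g, hg⟩ := hs z hz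
      exact ⟨⟨(g, z), hg⟩, by rw [hD]⟩)
  refine ⟨C, hC, fun z hz => ?_⟩
  obtain ⟨x, hx, hxn⟩ := hpre z hz
  rw [hD] at hx
  refine ⟨x.1.1, ?_, ?_⟩
  · have h1 : (x.1.1, x.1.2) ∈ Γ := x.2
    rw [hx] at h1
    exact h1
  · calc ‖x.1.1‖ ≤ ‖x.1‖ := norm_fst_le x.1
      _ = ‖x‖ := rfl
      _ ≤ C * ‖z‖ := hxn

section Linear

variable {A : Type v} [NormedRing A] [NormedAlgebra ℂ A]

theorem hd_add (n : ℕ) (g g' : ContinuousMultilinearMap ℂ (fun _ : Fin n => A) A)
    (a : Fin (n + 1) → A) : hd n (g + g') a = hd n g a + hd n g' a := by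
  simp only [hd, add_apply, mul_add, add_mul, smul_add, Finset.sum_add_distrib]
  abel

theorem hd_smul (n : ℕ) (z : ℂ) (g : ContinuousMultilinearMap ℂ (fun _ : Fin n => A) A)
    (a : Fin (n + 1) → A) : hd n (z • g) a = z • hd n g a := by
  have h1 : ∀ (w : ℂ) (x : A), w • (z • x) = z • (w • x) := fun w x => smul_comm w z x
  simp only [hd, smul_apply, mul_smul_comm, smul_mul_assoc, smul_add, Finset.smul_sum, h1]

theorem hd_zero (n : ℕ) (a : Fin (n + 1) → A) :
    hd n (0 : ContinuousMultilinearMap ℂ (fun _ : Fin n => A) A) a = 0 := by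
  simp [hd]

theorem continuous_hd (n : ℕ) (a : Fin (n + 1) → A) :
    Continuous (fun g : ContinuousMultilinearMap ℂ (fun _ : Fin n => A) A => hd n g a) := by
  unfold hd
  refine Continuous.add (Continuous.add ?_ ?_) ?_
  · exact continuous_const.mul (continuous_eval_const _)
  · exact continuous_finsetSum _ (fun j _ => (continuous_eval_const _).const_smul _)
  · exact ((continuous_eval_const _).mul continuous_const).const_smul _

/-- the cocycles, as a subspace -/
def cocyclesN (A : Type v) [NormedRing A] [NormedAlgebra ℂ A] (n : ℕ) :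
    Submodule ℂ (ContinuousMultilinearMap ℂ (fun _ : Fin n => A) A) where
  carrier := {f | IsCocycle n f}
  add_mem' := fun {f f'} hf hf' a => by rw [hd_add, hf a, hf' a, add_zero]
  zero_mem' := fun a => hd_zero n a
  smul_mem' := fun z f hf a => by rw [hd_smul, hf a, smul_zero]

theorem mem_cocyclesN (n : ℕ) (f : ContinuousMultilinearMap ℂ (fun _ : Fin n => A) A) :
    f ∈ cocyclesN A n ↔ IsCocycle n f := Iff.rfl

theorem isClosed_cocyclesN (n : ℕ) :
    IsClosed (cocyclesN A n : Set (ContinuousMultilinearMap ℂ (fun _ : Fin n => A) A)) := by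
  have h : (cocyclesN A n : Set (ContinuousMultilinearMap ℂ (fun _ : Fin n => A) A))
      = ⋂ a : Fin (n + 1) → A,
        (fun g : ContinuousMultilinearMap ℂ (fun _ : Fin n => A) A => hd n g a) ⁻¹' {0} := by
    ext f
    simp only [Set.mem_iInter, Set.mem_preimage, Set.mem_singleton_iff]
    rfl
  rw [h]
  exact isClosed_iInter (fun a => IsClosed.preimage (continuous_hd n a) isClosed_singleton)

/-- the graph of the coboundary relation over the cocycles: pairs `g`, `f` with `f = dg` and
`df = 0`, as a subspace of the product -/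
def graphN (A : Type v) [NormedRing A] [NormedAlgebra ℂ A] (n : ℕ) :
    Submodule ℂ (ContinuousMultilinearMap ℂ (fun _ : Fin n => A) A
      × ContinuousMultilinearMap ℂ (fun _ : Fin (n + 1) => A) A) where
  carrier := {x | IsCobound n x.2 x.1 ∧ IsCocycle (n + 1) x.2}
  add_mem' := fun {x y} hx hy => by
    refine ⟨fun a => ?_, fun a => ?_⟩
    · show (x.2 + y.2) a = hd n (x.1 + y.1) a
      rw [hd_add, add_apply, hx.1 a, hy.1 a]
    · show hd (n + 1) (x.2 + y.2) a = 0
      rw [hd_add, hx.2 a, hy.2 a, add_zero]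
  zero_mem' := by
    refine ⟨fun a => ?_, fun a => ?_⟩
    · show (0 : ContinuousMultilinearMap ℂ (fun _ : Fin (n + 1) => A) A) a = hd n 0 a
      rw [hd_zero]
      rfl
    · exact hd_zero (n + 1) a
  smul_mem' := fun z x hx => by
    refine ⟨fun a => ?_, fun a => ?_⟩
    · show (z • x.2) a = hd n (z • x.1) a
      rw [hd_smul, smul_apply, hx.1 a]
    · show hd (n + 1) (z • x.2) a = 0
      rw [hd_smul, hx.2 a, smul_zero]

theorem isClosed_graphN (n : ℕ) :
    IsClosed (graphN A n : Set (ContinuousMultilinearMap ℂ (fun _ : Fin n => A) A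
      × ContinuousMultilinearMap ℂ (fun _ : Fin (n + 1) => A) A)) := by
  have h : (graphN A n : Set (ContinuousMultilinearMap ℂ (fun _ : Fin n => A) A
      × ContinuousMultilinearMap ℂ (fun _ : Fin (n + 1) => A) A))
      = (⋂ a : Fin (n + 1) → A, {x | x.2 a = hd n x.1 a})
        ∩ ⋂ a : Fin (n + 2) → A, {x | hd (n + 1) x.2 a = 0} := by
    ext x
    simp only [Set.mem_inter_iff, Set.mem_iInter]
    exact Iff.rfl
  rw [h]
  refine IsClosed.inter (isClosed_iInter (fun a => ?_)) (isClosed_iInter (fun a => ?_))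
  · exact isClosed_eq ((continuous_eval_const a).comp continuous_snd)
      ((continuous_hd n a).comp continuous_fst)
  · exact isClosed_eq ((continuous_hd (n + 1) a).comp continuous_snd) continuous_const

/-- open mapping step: if every bounded cocycle of degree `n+1` of the Banach algebra `A` is a
coboundary, then there is a constant `K ≥ 0` such that every cocycle `f` is the coboundary of
some `g` with `‖g‖ ≤ K * ‖f‖` -/
theorem exists_constN [CompleteSpace A] (n : ℕ) (h : AlgHVanishes A n) :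
    ∃ K : ℝ, 0 ≤ K ∧ AlgHVanishesWith A n K := by
  obtain ⟨C, hC, hpre⟩ := graph_open_mapping (graphN A n) (isClosed_graphN n)
    (cocyclesN A (n + 1)) (isClosed_cocyclesN (n + 1)) (fun x hx => hx.2)
    (fun z hz => by
      obtain ⟨g, hg⟩ := h z hz
      exact ⟨g, ⟨hg, hz⟩⟩)
  refine ⟨C, hC.le, fun f hf => ?_⟩
  obtain ⟨g, hg, hgn⟩ := hpre f hf
  exact ⟨g, hg.1, hgn⟩

end Linear

section Transfer

variable {A : Type v} [NormedRing A] [NormedAlgebra ℂ A] {B : Type w} [NormedRing B]
  [NormedAlgebra ℂ B]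

/-- pull a bounded multilinear map on `B` back to `A` through `c`, with values pushed to `A`
through `i`: the arguments `a` are sent to `i (f (c ∘ a))` -/
noncomputable def pullN (c : A →L[ℂ] B) (i : B →L[ℂ] A) {n : ℕ}
    (f : ContinuousMultilinearMap ℂ (fun _ : Fin n => B) B) :
    ContinuousMultilinearMap ℂ (fun _ : Fin n => A) A :=
  (i.compContinuousMultilinearMap f).compContinuousLinearMap (fun _ => c)

theorem pullN_apply (c : A →L[ℂ] B) (i : B →L[ℂ] A) {n : ℕ}
    (f : ContinuousMultilinearMap ℂ (fun _ : Fin n => B) B) (a : Fin n → A) :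
    pullN c i f a = i (f (fun j => c (a j))) := rfl

theorem norm_pullN_le (c : A →L[ℂ] B) (i : B →L[ℂ] A) {n : ℕ}
    (f : ContinuousMultilinearMap ℂ (fun _ : Fin n => B) B)
    (hc1 : ‖c‖ ≤ 1) (hi1 : ‖i‖ ≤ 1) : ‖pullN c i f‖ ≤ ‖f‖ := by
  refine ContinuousMultilinearMap.opNorm_le_bound (norm_nonneg f) (fun a => ?_)
  rw [pullN_apply]
  calc ‖i (f (fun j => c (a j)))‖ ≤ ‖f (fun j => c (a j))‖ :=
        norm_apply_le_of_norm_le_one i hi1 _
    _ ≤ ‖f‖ * ∏ j, ‖c (a j)‖ := f.le_opNorm _
    _ ≤ ‖f‖ * ∏ j, ‖a j‖ := by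
        refine mul_le_mul_of_nonneg_left ?_ (norm_nonneg f)
        exact Finset.prod_le_prod (fun j _ => norm_nonneg _)
          (fun j _ => norm_apply_le_of_norm_le_one c hc1 (a j))

theorem map_merge (c : A →L[ℂ] B) (hc : ∀ x y, c (x * y) = c x * c y) {n : ℕ} (j : Fin n)
    (a : Fin (n + 1) → A) :
    (fun l => c (merge j a l)) = merge j (fun l => c (a l)) := by
  funext l
  unfold merge
  split_ifs
  · rfl
  · exact hc _ _
  · rfl

/-- the differential commutes with pulling back -/
theorem hd_pullN (c : A →L[ℂ] B) (i : B →L[ℂ] A)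
    (hc : ∀ x y, c (x * y) = c x * c y) (hl : ∀ x t, x * i t = i (c x * t))
    (hr : ∀ t x, i t * x = i (t * c x)) (n : ℕ)
    (f : ContinuousMultilinearMap ℂ (fun _ : Fin n => B) B) (a : Fin (n + 1) → A) :
    hd n (pullN c i f) a = i (hd n f (fun l => c (a l))) := by
  unfold hd
  simp only [pullN_apply]
  rw [hl, hr, map_add, map_add, map_sum, map_smul]
  congr 2
  refine Finset.sum_congr rfl (fun j _ => ?_)
  rw [map_smul, map_merge c hc]

/-- transfer of the constant from `A` to a corner `B` of `A`, in every degree -/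
theorem transferN (c : A →L[ℂ] B) (i : B →L[ℂ] A)
    (hc : ∀ x y, c (x * y) = c x * c y) (hi : ∀ s t, i (s * t) = i s * i t)
    (hci : ∀ t, c (i t) = t) (hl : ∀ x t, x * i t = i (c x * t))
    (hr : ∀ t x, i t * x = i (t * c x)) (hc1 : ‖c‖ ≤ 1) (hi1 : ‖i‖ ≤ 1)
    (n : ℕ) (K : ℝ) (hK : 0 ≤ K) (hA : AlgHVanishesWith A n K) : AlgHVanishesWith B n K := by
  intro f hf
  have hF : IsCocycle (n + 1) (pullN c i f) := by
    intro a
    rw [hd_pullN c i hc hl hr, hf, map_zero]
  obtain ⟨G, hG, hGn⟩ := hA (pullN c i f) hF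
  have hl' : ∀ (t : B) (x : A), t * c x = c (i t * x) := by
    intro t x
    rw [hc, hci]
  have hr' : ∀ (x : A) (t : B), c x * t = c (x * i t) := by
    intro x t
    rw [hc, hci]
  refine ⟨pullN i c G, ?_, ?_⟩
  · intro b
    rw [hd_pullN i c hi hl' hr', ← hG, pullN_apply, hci]
    congr 1
    funext j
    exact (hci (b j)).symm
  · calc ‖pullN i c G‖ ≤ ‖G‖ := norm_pullN_le i c G hi1 hc1
      _ ≤ K * ‖pullN c i f‖ := hGn
      _ ≤ K * ‖f‖ := by
          gcongr
          exact norm_pullN_le c i f hc1 hi1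

end Transfer

end Vale.Agent.Lib.P082.H95N
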