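import Vale.Agent.Lib.P082.helper95.Abstract
import Vale.Agent.Lib.P096.helper95.Main

/-!
# P082: a block of a block-diagonal von Neumann algebra is a corner

For the block-diagonal algebra `diagAlg V hi A` of P096 (operators on `E` commuting with the
range projections of the isometries `V k` and with `k`-th compression in `A k`), compression to
the `k`-th block and inflation from it are contractive multiplicative maps between the
algebras, as needed by `transfer`.
-/

namespace Vale.Agent.Lib.P082.H95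

open ContinuousLinearMap Vale.Agent.Lib.P096.H95

universe u

section Abstract

variable {ι : Type} {E : Type u} [NormedAddCommGroup E] [InnerProductSpace ℂ E] [CompleteSpace E]
variable {H : ι → Type u} [∀ k, NormedAddCommGroup (H k)] [∀ k, InnerProductSpace ℂ (H k)]
  [∀ k, CompleteSpace (H k)]

theorem cmp_smul (V : ∀ k, H k →L[ℂ] E) (k : ι) (z : ℂ) (X : E →L[ℂ] E) :
    cmp V k (z • X) = z • cmp V k X := by
  ext v
  simp [cmp_apply]

theorem infl_add (V : ∀ k, H k →L[ℂ] E) (k : ι) (S T : H k →L[ℂ] H k) :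
    infl V k (S + T) = infl V k S + infl V k T := by
  ext e
  simp [infl_apply]

theorem infl_smul (V : ∀ k, H k →L[ℂ] E) (k : ι) (z : ℂ) (T : H k →L[ℂ] H k) :
    infl V k (z • T) = z • infl V k T := by
  ext e
  simp [infl_apply]

theorem infl_mul {V : ∀ k, H k →L[ℂ] E} (hi : ∀ k v, adjoint (V k) (V k v) = v)
    (k : ι) (S T : H k →L[ℂ] H k) : infl V k (S * T) = infl V k S * infl V k T := by
  ext e
  show V k (S (T (adjoint (V k) e))) = V k (S (adjoint (V k) (V k (T (adjoint (V k) e)))))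
  rw [hi]

theorem mul_infl {V : ∀ k, H k →L[ℂ] E} (hi : ∀ k v, adjoint (V k) (V k v) = v)
    {k : ι} {X : E →L[ℂ] E} (hX : X * prj V k = prj V k * X) (T : H k →L[ℂ] H k) :
    X * infl V k T = infl V k (cmp V k X * T) := by
  ext e
  show X (V k (T (adjoint (V k) e))) = V k (adjoint (V k) (X (V k (T (adjoint (V k) e)))))
  exact comm_V hi hX _

theorem infl_mul' {V : ∀ k, H k →L[ℂ] E} (hi : ∀ k v, adjoint (V k) (V k v) = v)
    {k : ι} {X : E →L[ℂ] E} (hX : X * prj V k = prj V k * X) (T : H k →L[ℂ] H k) :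
    infl V k T * X = infl V k (T * cmp V k X) := by
  ext e
  show V k (T (adjoint (V k) (X e))) = V k (T (adjoint (V k) (X (V k (adjoint (V k) e)))))
  rw [comm_apply hX e, hi]

theorem isClosed_vonNeumann {K : Type u} [NormedAddCommGroup K] [InnerProductSpace ℂ K]
    [CompleteSpace K] (M : VonNeumannAlgebra K) : IsClosed (M : Set (K →L[ℂ] K)) := by
  rw [← M.centralizer_centralizer]
  exact Set.isClosed_centralizer _

theorem completeSpace_vonNeumann {K : Type u} [NormedAddCommGroup K] [InnerProductSpace ℂ K]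
    [CompleteSpace K] (M : VonNeumannAlgebra K) : CompleteSpace M.toStarSubalgebra :=
  (isClosed_vonNeumann M).completeSpace_coe

/-- compression to the `k`-th block, as a bounded linear map between the algebras -/
noncomputable def cL (V : ∀ k, H k →L[ℂ] E) (hi : ∀ k v, adjoint (V k) (V k v) = v)
    (A : ∀ k, VonNeumannAlgebra (H k)) (k : ι) :
    (diagAlg V hi A).toStarSubalgebra →L[ℂ] (A k).toStarSubalgebra :=
  LinearMap.mkContinuous
    { toFun := fun X => ⟨cmp V k X.1, (mem_diagAlg.mp X.2).2 k⟩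
      map_add' := fun X Y => Subtype.ext (cmp_add V k X.1 Y.1)
      map_smul' := fun z X => Subtype.ext (cmp_smul V k z X.1) }
    1 (fun X => by rw [one_mul]; exact norm_cmp_le hi k X.1)

/-- inflation from the `k`-th block, as a bounded linear map between the algebras -/
noncomputable def iL (V : ∀ k, H k →L[ℂ] E) (hi : ∀ k v, adjoint (V k) (V k v) = v)
    (ho : ∀ j k, j ≠ k → ∀ v, adjoint (V j) (V k v) = 0)
    (A : ∀ k, VonNeumannAlgebra (H k)) (k : ι) :
    (A k).toStarSubalgebra →L[ℂ] (diagAlg V hi A).toStarSubalgebra :=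
  LinearMap.mkContinuous
    { toFun := fun T => ⟨infl V k T.1, infl_mem_diagAlg hi ho A k T.2⟩
      map_add' := fun S T => Subtype.ext (infl_add V k S.1 T.1)
      map_smul' := fun z T => Subtype.ext (infl_smul V k z T.1) }
    1 (fun T => by rw [one_mul]; exact norm_infl_le hi k T.1)

theorem cL_coe (V : ∀ k, H k →L[ℂ] E) (hi : ∀ k v, adjoint (V k) (V k v) = v)
    (A : ∀ k, VonNeumannAlgebra (H k)) (k : ι) (X : (diagAlg V hi A).toStarSubalgebra) :
    ((cL V hi A k X : (A k).toStarSubalgebra) : H k →L[ℂ] H k) = cmp V k X.1 := rfl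

theorem iL_coe (V : ∀ k, H k →L[ℂ] E) (hi : ∀ k v, adjoint (V k) (V k v) = v)
    (ho : ∀ j k, j ≠ k → ∀ v, adjoint (V j) (V k v) = 0)
    (A : ∀ k, VonNeumannAlgebra (H k)) (k : ι) (T : (A k).toStarSubalgebra) :
    ((iL V hi ho A k T : (diagAlg V hi A).toStarSubalgebra) : E →L[ℂ] E) = infl V k T.1 := rfl

theorem norm_cL_le (V : ∀ k, H k →L[ℂ] E) (hi : ∀ k v, adjoint (V k) (V k v) = v)
    (A : ∀ k, VonNeumannAlgebra (H k)) (k : ι) : ‖cL V hi A k‖ ≤ 1 :=
  LinearMap.mkContinuous_norm_le _ zero_le_one _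

theorem norm_iL_le (V : ∀ k, H k →L[ℂ] E) (hi : ∀ k v, adjoint (V k) (V k v) = v)
    (ho : ∀ j k, j ≠ k → ∀ v, adjoint (V j) (V k v) = 0)
    (A : ∀ k, VonNeumannAlgebra (H k)) (k : ι) : ‖iL V hi ho A k‖ ≤ 1 :=
  LinearMap.mkContinuous_norm_le _ zero_le_one _

/-- every block of a block-diagonal algebra inherits a cobounding constant -/
theorem block_const (V : ∀ k, H k →L[ℂ] E) (hi : ∀ k v, adjoint (V k) (V k v) = v)
    (ho : ∀ j k, j ≠ k → ∀ v, adjoint (V j) (V k v) = 0)
    (A : ∀ k, VonNeumannAlgebra (H k)) (K : ℝ) (hK : 0 ≤ K)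
    (hA : H2VanishesWith (diagAlg V hi A) K) (k : ι) : H2VanishesWith (A k) K := by
  refine transfer (cL V hi A k) (iL V hi ho A k) ?_ ?_ ?_ ?_ ?_ (norm_cL_le V hi A k)
    (norm_iL_le V hi ho A k) K hK hA
  · intro X Y
    exact Subtype.ext (cmp_mul hi X.1 ((mem_diagAlg.mp Y.2).1 k))
  · intro S T
    exact Subtype.ext (infl_mul hi k S.1 T.1)
  · intro T
    exact Subtype.ext (cmp_infl_self hi k T.1)
  · intro X T
    exact Subtype.ext (mul_infl hi ((mem_diagAlg.mp X.2).1 k) T.1)
  · intro T X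
    exact Subtype.ext (infl_mul' hi ((mem_diagAlg.mp X.2).1 k) T.1)

end Abstract

end Vale.Agent.Lib.P082.H95
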