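import Mathlib

/-!
# P082: bounded Hochschild 2-cocycles and 2-coboundaries of a normed algebra into itself

For a complex normed algebra `A`, a bounded bilinear map `f : A × A → A` is written as
`f : A →L[ℂ] A →L[ℂ] A`; its norm is `sup ‖f a b‖` over `‖a‖, ‖b‖ ≤ 1`.
`IsCocycle2 f` is `df = 0` and `IsCobound2 f g` is `f = dg` for the Hochschild differential.
For a von Neumann algebra `M` the algebra is the subtype `M.toStarSubalgebra`.
-/

namespace Vale.Agent.Lib.P082.H95

universe v

/-- `f` is a Hochschild 2-cocycle: `a f(b,c) - f(ab,c) + f(a,bc) - f(a,b) c = 0` -/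
def IsCocycle2 {A : Type v} [NormedRing A] [NormedAlgebra ℂ A]
    (f : A →L[ℂ] A →L[ℂ] A) : Prop :=
  ∀ a b c : A, a * f b c - f (a * b) c + f a (b * c) - f a b * c = 0

/-- `f` is the Hochschild coboundary of `g`: `f(a,b) = a g(b) - g(ab) + g(a) b` -/
def IsCobound2 {A : Type v} [NormedRing A] [NormedAlgebra ℂ A]
    (f : A →L[ℂ] A →L[ℂ] A) (g : A →L[ℂ] A) : Prop :=
  ∀ a b : A, f a b = a * g b - g (a * b) + g a * b

/-- every bounded 2-cocycle of the normed algebra `A` into itself is the coboundary of a bounded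
linear map -/
def AlgH2Vanishes (A : Type v) [NormedRing A] [NormedAlgebra ℂ A] : Prop :=
  ∀ f : A →L[ℂ] A →L[ℂ] A, IsCocycle2 f → ∃ g : A →L[ℂ] A, IsCobound2 f g

/-- every bounded 2-cocycle `f` of the normed algebra `A` into itself is the coboundary of a
bounded linear map `g` with `‖g‖ ≤ K * ‖f‖` -/
def AlgH2VanishesWith (A : Type v) [NormedRing A] [NormedAlgebra ℂ A] (K : ℝ) : Prop :=
  ∀ f : A →L[ℂ] A →L[ℂ] A, IsCocycle2 f →
    ∃ g : A →L[ℂ] A, IsCobound2 f g ∧ ‖g‖ ≤ K * ‖f‖

/-- every bounded 2-cocycle of the von Neumann algebra `M` into itself is the coboundary of a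
bounded linear map: `H_b^2(M, M) = 0` -/
def H2Vanishes {H : Type v} [NormedAddCommGroup H] [InnerProductSpace ℂ H] [CompleteSpace H]
    (M : VonNeumannAlgebra H) : Prop :=
  AlgH2Vanishes M.toStarSubalgebra

/-- every bounded 2-cocycle `f` of `M` into itself is the coboundary of a bounded linear map `g`
with `‖g‖ ≤ K * ‖f‖` -/
def H2VanishesWith {H : Type v} [NormedAddCommGroup H] [InnerProductSpace ℂ H] [CompleteSpace H]
    (M : VonNeumannAlgebra H) (K : ℝ) : Prop :=
  AlgH2VanishesWith M.toStarSubalgebra K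

end Vale.Agent.Lib.P082.H95
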