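import Mathlib

/-!
# P082: bounded Hochschild cochains of every degree of a normed algebra into itself

A bounded `n`-linear map `A^n → A` is a `ContinuousMultilinearMap ℂ (fun _ : Fin n => A) A`; its
norm is `sup ‖g (a 1, …, a n)‖` over `‖a i‖ ≤ 1`.  For `n = 0` this is an element of `A`.
`hd n g` is the Hochschild differential of `g`, a function of `n + 1` arguments.
-/

namespace Vale.Agent.Lib.P082.H95N

universe v

/-- the `n` arguments `a 0, …, a j * a (j+1), …, a n` made from the `n + 1` arguments
`a 0, …, a n` by multiplying the two neighbours in places `j` and `j + 1` -/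
def merge {A : Type v} [Mul A] {n : ℕ} (j : Fin n) (a : Fin (n + 1) → A) : Fin n → A :=
  fun i => if i < j then a i.castSucc else if i = j then a i.castSucc * a i.succ else a i.succ

/-- the Hochschild differential of the bounded `n`-linear map `g` at `a 0, …, a n`:
`a 0 * g (a 1, …, a n) + ∑_{j < n} (-1)^(j+1) g (a 0, …, a j * a (j+1), …, a n)
  + (-1)^(n+1) g (a 0, …, a (n-1)) * a n` -/
noncomputable def hd {A : Type v} [NormedRing A] [NormedAlgebra ℂ A] (n : ℕ)
    (g : ContinuousMultilinearMap ℂ (fun _ : Fin n => A) A) (a : Fin (n + 1) → A) : A :=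
  a 0 * g (fun i => a i.succ) + ∑ j : Fin n, (-1 : ℂ) ^ (j.val + 1) • g (merge j a)
    + (-1 : ℂ) ^ (n + 1) • (g (fun i => a i.castSucc) * a (Fin.last n))

/-- `f` is a Hochschild `n`-cocycle: `df = 0` -/
def IsCocycle {A : Type v} [NormedRing A] [NormedAlgebra ℂ A] (n : ℕ)
    (f : ContinuousMultilinearMap ℂ (fun _ : Fin n => A) A) : Prop :=
  ∀ a : Fin (n + 1) → A, hd n f a = 0

/-- the cochain `f` of degree `n+1` is the Hochschild coboundary of the cochain `g` of degree
`n`: `f = dg` -/
def IsCobound {A : Type v} [NormedRing A] [NormedAlgebra ℂ A] (n : ℕ)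
    (f : ContinuousMultilinearMap ℂ (fun _ : Fin (n + 1) => A) A)
    (g : ContinuousMultilinearMap ℂ (fun _ : Fin n => A) A) : Prop :=
  ∀ a : Fin (n + 1) → A, f a = hd n g a

/-- every bounded cocycle of degree `n+1` of the normed algebra `A` into itself is the
coboundary of a bounded cochain of degree `n` -/
def AlgHVanishes (A : Type v) [NormedRing A] [NormedAlgebra ℂ A] (n : ℕ) : Prop :=
  ∀ f : ContinuousMultilinearMap ℂ (fun _ : Fin (n + 1) => A) A, IsCocycle (n + 1) f →
    ∃ g : ContinuousMultilinearMap ℂ (fun _ : Fin n => A) A, IsCobound n f g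

/-- every bounded cocycle `f` of degree `n+1` of the normed algebra `A` into itself is the
coboundary of a bounded cochain `g` of degree `n` with `‖g‖ ≤ K * ‖f‖` -/
def AlgHVanishesWith (A : Type v) [NormedRing A] [NormedAlgebra ℂ A] (n : ℕ) (K : ℝ) : Prop :=
  ∀ f : ContinuousMultilinearMap ℂ (fun _ : Fin (n + 1) => A) A, IsCocycle (n + 1) f →
    ∃ g : ContinuousMultilinearMap ℂ (fun _ : Fin n => A) A, IsCobound n f g ∧ ‖g‖ ≤ K * ‖f‖

/-- `H_b^(n+1)(M, M) = 0` for the von Neumann algebra `M` -/
def HVanishes {H : Type v} [NormedAddCommGroup H] [InnerProductSpace ℂ H] [CompleteSpace H]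
    (M : VonNeumannAlgebra H) (n : ℕ) : Prop :=
  AlgHVanishes M.toStarSubalgebra n

/-- `H_b^(n+1)(M, M) = 0` for the von Neumann algebra `M`, with the constant `K` -/
def HVanishesWith {H : Type v} [NormedAddCommGroup H] [InnerProductSpace ℂ H] [CompleteSpace H]
    (M : VonNeumannAlgebra H) (n : ℕ) (K : ℝ) : Prop :=
  AlgHVanishesWith M.toStarSubalgebra n K

end Vale.Agent.Lib.P082.H95N
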