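import Vale.Agent.Lib.P082.helper95.Block

/-!
# P082: vanishing of the second bounded Hochschild cohomology of all von Neumann algebras is
equivalent to vanishing with a universal constant
-/

namespace Vale.Agent.Lib.P082.H95

open ContinuousLinearMap Vale.Agent.Lib.P096.H95

universe u

/-- per algebra: vanishing gives vanishing with some constant (open mapping theorem) -/
theorem vanishesWith_of_vanishes {K : Type u} [NormedAddCommGroup K] [InnerProductSpace ℂ K]
    [CompleteSpace K] (M : VonNeumannAlgebra K) (h : H2Vanishes M) :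
    ∃ C : ℝ, 0 ≤ C ∧ H2VanishesWith M C := by
  have hcomp : CompleteSpace M.toStarSubalgebra := completeSpace_vonNeumann M
  exact exists_const h

theorem vanishesWith_mono {K : Type u} [NormedAddCommGroup K] [InnerProductSpace ℂ K]
    [CompleteSpace K] (M : VonNeumannAlgebra K) {C C' : ℝ} (hC : C ≤ C')
    (h : H2VanishesWith M C) : H2VanishesWith M C' := by
  intro f hf
  obtain ⟨g, hg, hgn⟩ := h f hf
  refine ⟨g, hg, hgn.trans ?_⟩
  exact mul_le_mul_of_nonneg_right hC (norm_nonneg f)

/-- `H_b^2(M, M) = 0` for every von Neumann algebra `M` (on Hilbert spaces of one universe) if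
and only if it vanishes with one universal constant. -/
theorem main_equiv :
    (∀ (K : Type u) [NormedAddCommGroup K] [InnerProductSpace ℂ K] [CompleteSpace K]
        (M : VonNeumannAlgebra K), H2Vanishes M) ↔
    ∃ C : ℝ, ∀ (K : Type u) [NormedAddCommGroup K] [InnerProductSpace ℂ K] [CompleteSpace K]
        (M : VonNeumannAlgebra K), H2VanishesWith M C := by
  constructor
  · intro hV
    by_contra hneg
    push Not at hneg
    choose H i1 i2 i3 M hbad using fun n : ℕ => hneg (n : ℝ)
    obtain ⟨C, hC0, hC⟩ := @vanishesWith_of_vanishes (lp H 2) _ _ _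
      (@diagAlg ℕ (lp H 2) _ _ _ H i1 i2 i3 (@incl H i1 i2) (@incl_iso H i1 i2 i3) M)
      (hV (lp H 2) _)
    obtain ⟨n, hn⟩ := exists_nat_ge C
    have hblock := @block_const ℕ (lp H 2) _ _ _ H i1 i2 i3 (@incl H i1 i2)
      (@incl_iso H i1 i2 i3) (@incl_orth H i1 i2 i3) M C hC0 hC n
    exact hbad n (@vanishesWith_mono (H n) (i1 n) (i2 n) (i3 n) (M n) C n hn hblock)
  · rintro ⟨C, hC⟩ K _ _ _ M f hf
    obtain ⟨g, hg, _⟩ := hC K M f hf
    exact ⟨g, hg⟩

end Vale.Agent.Lib.P082.H95
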