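import Vale.Agent.Lib.P082.helper95.AbstractN
import Vale.Agent.Lib.P082.helper95.Block

/-!
# P082, every degree: vanishing of the bounded Hochschild cohomology `H_b^(n+1)(M, M)` of all
von Neumann algebras is equivalent to vanishing with a universal constant
-/

namespace Vale.Agent.Lib.P082.H95N

open ContinuousLinearMap Vale.Agent.Lib.P096.H95 Vale.Agent.Lib.P082.H95

universe u

section Abstract

variable {ι : Type} {E : Type u} [NormedAddCommGroup E] [InnerProductSpace ℂ E] [CompleteSpace E]
variable {H : ι → Type u} [∀ k, NormedAddCommGroup (H k)] [∀ k, InnerProductSpace ℂ (H k)]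
  [∀ k, CompleteSpace (H k)]

/-- every block of a block-diagonal algebra inherits a cobounding constant, in every degree -/
theorem block_constN (V : ∀ k, H k →L[ℂ] E) (hi : ∀ k v, adjoint (V k) (V k v) = v)
    (ho : ∀ j k, j ≠ k → ∀ v, adjoint (V j) (V k v) = 0)
    (A : ∀ k, VonNeumannAlgebra (H k)) (n : ℕ) (K : ℝ) (hK : 0 ≤ K)
    (hA : HVanishesWith (diagAlg V hi A) n K) (k : ι) : HVanishesWith (A k) n K := by
  refine transferN (cL V hi A k) (iL V hi ho A k) ?_ ?_ ?_ ?_ ?_ (norm_cL_le V hi A k)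
    (norm_iL_le V hi ho A k) n K hK hA
  · intro X Y
    exact Subtype.ext (cmp_mul hi X.1 ((mem_diagAlg.mp Y.2).1 k))
  · intro S T
    exact Subtype.ext (infl_mul hi k S.1 T.1)
  · intro T
    exact Subtype.ext (cmp_infl_self hi k T.1)
  · intro X T
    exact Subtype.ext (mul_infl hi ((mem_diagAlg.mp X.2).1 k) T.1)
  · intro T X
    exact Subtype.ext (infl_mul' hi ((mem_diagAlg.mp X.2).1 k) T.1)

end Abstract

/-- per algebra: vanishing gives vanishing with some constant (open mapping theorem) -/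
theorem vanishesWith_of_vanishesN {K : Type u} [NormedAddCommGroup K] [InnerProductSpace ℂ K]
    [CompleteSpace K] (M : VonNeumannAlgebra K) (n : ℕ) (h : HVanishes M n) :
    ∃ C : ℝ, 0 ≤ C ∧ HVanishesWith M n C := by
  have hcomp : CompleteSpace M.toStarSubalgebra := completeSpace_vonNeumann M
  exact exists_constN n h

theorem vanishesWith_monoN {K : Type u} [NormedAddCommGroup K] [InnerProductSpace ℂ K]
    [CompleteSpace K] (M : VonNeumannAlgebra K) (n : ℕ) {C C' : ℝ} (hC : C ≤ C')
    (h : HVanishesWith M n C) : HVanishesWith M n C' := by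
  intro f hf
  obtain ⟨g, hg, hgn⟩ := h f hf
  refine ⟨g, hg, hgn.trans ?_⟩
  exact mul_le_mul_of_nonneg_right hC (norm_nonneg f)

/-- for every `n`: `H_b^(n+1)(M, M) = 0` for every von Neumann algebra `M` (on Hilbert spaces
of one universe) if and only if it vanishes with one universal constant. -/
theorem main_equivN (n : ℕ) :
    (∀ (K : Type u) [NormedAddCommGroup K] [InnerProductSpace ℂ K] [CompleteSpace K]
        (M : VonNeumannAlgebra K), HVanishes M n) ↔
    ∃ C : ℝ, ∀ (K : Type u) [NormedAddCommGroup K] [InnerProductSpace ℂ K] [CompleteSpace K]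
        (M : VonNeumannAlgebra K), HVanishesWith M n C := by
  constructor
  · intro hV
    by_contra hneg
    push Not at hneg
    choose H i1 i2 i3 M hbad using fun m : ℕ => hneg (m : ℝ)
    obtain ⟨C, hC0, hC⟩ := @vanishesWith_of_vanishesN (lp H 2) _ _ _
      (@diagAlg ℕ (lp H 2) _ _ _ H i1 i2 i3 (@incl H i1 i2) (@incl_iso H i1 i2 i3) M) n
      (hV (lp H 2) _)
    obtain ⟨m, hm⟩ := exists_nat_ge C
    have hblock := @block_constN ℕ (lp H 2) _ _ _ H i1 i2 i3 (@incl H i1 i2)
      (@incl_iso H i1 i2 i3) (@incl_orth H i1 i2 i3) M n C hC0 hC m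
    exact hbad m (@vanishesWith_monoN (H m) (i1 m) (i2 m) (i3 m) (M m) n C m hm hblock)
  · rintro ⟨C, hC⟩ K _ _ _ M f hf
    obtain ⟨g, hg, _⟩ := hC K M f hf
    exact ⟨g, hg⟩

end Vale.Agent.Lib.P082.H95N
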